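import Vale.Agent.P078.Quad.Main

/-! So-paving over every maximal abelian subalgebra of every von Neumann algebra with a number
of pieces quadratic in `1 / ε`. -/

namespace Vale.Agent.Results.P078.AllMasaQuadraticSoPaving

open Vale.Agent.P078.Tracial

/-- There is a universal constant `C` such that for `0 < ε ≤ 1` at most `C (1/ε) ^ 2` pieces
suffice for so-paving every self-adjoint element over every MASA of every von Neumann algebra. -/
theorem result :
    ∃ C : ℝ, 0 < C ∧ ∀ ε : ℝ, 0 < ε → ε ≤ 1 → ∃ n : ℕ, (n : ℝ) ≤ C * (1 / ε) ^ 2 ∧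
      ∀ (H : Type) [NormedAddCommGroup H] [InnerProductSpace ℂ H] [CompleteSpace H]
        (M : VonNeumannAlgebra H) (A : StarSubalgebra ℂ (H →L[ℂ] H)),
        SubalgebraOf M A → IsAbelianAlg A → ContainsRelCommutant M A →
        AllSoPavableIn M A ε n :=
  Vale.Agent.P078.Quad.soPavableIn_all_quadratic

end Vale.Agent.Results.P078.AllMasaQuadraticSoPaving
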