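import Vale.Agent.P078.Bounds

/-! So-paving over diffuse maximal abelian subalgebras of all bounded operators. -/

namespace Vale.Agent.Results.P078.DiffuseBH

open Vale.Agent.P078

/-- For every diffuse maximal abelian selfadjoint subalgebra of the bounded operators on a
Hilbert space, `1/ε < r` pieces suffice for so-paving, and `r ≥ 1/(2ε)` pieces are necessary. -/
theorem result (H : Type) [NormedAddCommGroup H] [InnerProductSpace ℂ H] [CompleteSpace H]
    (A : StarSubalgebra ℂ (H →L[ℂ] H))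
    (hA : Set.centralizer (A : Set (H →L[ℂ] H)) = (A : Set (H →L[ℂ] H)))
    (hd : ∀ p ∈ A, IsStarProjection p → p ≠ 0 →
      ∃ p' ∈ A, IsStarProjection p' ∧ p' ≠ 0 ∧ p' ≠ p ∧ p * p' = p')
    (ε : ℝ) (hε : 0 < ε) :
    (∀ x : H →L[ℂ] H, IsSelfAdjoint x → SoPavable A x ε (⌊1 / ε⌋₊ + 1)) ∧
      (Nontrivial H → ∀ r : ℕ,
        (∀ x : H →L[ℂ] H, IsSelfAdjoint x → SoPavable A x ε r) → 1 / (2 * ε) ≤ (r : ℝ)) := by
  refine ⟨fun x hx => soPavable_of_lt hA hd (Nat.succ_pos _) ?_ hx, fun _ r hr => ?_⟩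
  · have h1 : 1 / ε < ((⌊1 / ε⌋₊ + 1 : ℕ) : ℝ) := by
      push_cast; exact Nat.lt_floor_add_one _
    rw [div_lt_iff₀ (by positivity)]
    rw [div_lt_iff₀ hε] at h1
    linarith
  · rw [div_le_iff₀ (by positivity)]
    linarith [le_of_soPavable hA hd hε hr]

end Vale.Agent.Results.P078.DiffuseBH
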